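import Vale.Agent.P267F.Bridge
import Vale.Agent.P267F.Canon
import Vale.Agent.P267G.Lat
import Vale.Agent.P267Q.Main
import Vale.Agent.P267K.Top

/-! P267: the final assembly. -/

open scoped Manifold ContDiff Topology

noncomputable section

namespace Vale.Agent.P267

theorem final_curves {X : Type} [TopologicalSpace X] [ChartedSpace C2 X] (hX : IsSurface X)
    (h7 : P267F.IsClassVII X)
    (h : ∀ (Y : Type) [TopologicalSpace Y] [ChartedSpace C2 Y], IsSurface Y →
      ∀ w : Y → X, IsLocalDiffeomorph 𝓘(ℂ, C2) 𝓘(ℂ, C2) ω w →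
        P267F.PoincareDuality Y ∧ P267F.RiemannRoch Y) : P267F.HasCurves X := by
  obtain ⟨a1, a2, a3, a4⟩ := id hX
  obtain ⟨M, _, _, _, _, _, π, g, h4⟩ := P267X.exists_cyclic X h7.1
  refine P267K.curves5 h4 h7.1 (br_class h7).2
    (P267Q.lattices_of (fun Y _ _ hY hY7 w hw p G hp => ?_) hX (br_class h7) h4)
  obtain ⟨b1, b2, b3, b4⟩ := id hY
  obtain ⟨Q, c, hF⟩ := sForm_of (h Y hY w hw).1 (h Y hY w hw).2 canon_hol
  have e : (2 - 2 * firstBetti Y + secondBetti Y : ℤ) = secondBetti Y := by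
    rw [hY7.1]
    push_cast
    ring
  rw [e] at hF
  exact SForm.lattice hp hY7 hF

end Vale.Agent.P267
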