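import Vale.Agent.P267.Stmt3
import Vale.Agent.P267K.Top

open scoped Manifold ContDiff
open Vale.Agent.P267

theorem Vale.Agent.P267F.old_Class7
    (X : Type) [TopologicalSpace X] [ChartedSpace C2 X] [IsManifold 𝓘(ℂ, C2) ω X] [T2Space X]
    [CompactSpace X] [ConnectedSpace X] (hb : firstBetti X = 1)
    (hP : ∀ m : ℕ, 1 ≤ m → H0 id (canon X ^ m) = ⊥)
    (M : Type) [TopologicalSpace M] [ChartedSpace C2 M] [IsManifold 𝓘(ℂ, C2) ω M] [T2Space M]
    [ConnectedSpace M] (π : M → X) (g : M ≃ₜ M) (h : IsCyclic π g) (n : ℕ)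
    (hL : ∀ N : ℕ, 0 < N → ∃ (L : Fin (n * N) → M → M → ℂ) (c : (M → M → ℂ) → Fin (n * N) → ℤ),
      IsLattice (g ^ N) (pull π (canon X)) L c) :
    ∃ C : Fin n → Set X, Function.Injective C ∧ ∀ i, IsRationalCurve (C i) :=
  Vale.Agent.P267K.curves5 h hb hP hL
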