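import Vale.Agent.P267.Stmt4
import Vale.Agent.P267L.Top
import Vale.Agent.P267E.Main

open Vale.Agent.P267

theorem Vale.Agent.P267F.old_GSS (hD : DOT) (hL : Lattices)
    (X : Type) [TopologicalSpace X] [ChartedSpace C2 X] (hX : IsSurface X) (h7 : IsClassVII X)
    (hm : IsMinimal X) (hb : 0 < secondBetti X) : HasGSS X :=
  gss_of (fun _ _ _ _ _ C => C.erg) hD hL X hX h7 hm hb
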