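import Vale.Agent.P267F.Canon
import Vale.Agent.P267G.Lat0
import Vale.Agent.P267N.Twist
import Vale.Agent.P267N.Elk0
import Vale.Agent.P267W.Main
import Vale.Agent.P267Q.Main
import Vale.Agent.P267K.Top
import Vale.Agent.P267X.Main

/-! P267: rational curves from Poincare duality and the Riemann-Roch formula. -/

open scoped Manifold ContDiff Topology
open Filter Matrix

noncomputable section

namespace Vale.Agent.P267

section
variable {X M : Type} [TopologicalSpace X] [ChartedSpace C2 X] [T2Space X] [CompactSpace X]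
  [IsManifold 𝓘(ℂ, C2) ω X] [TopologicalSpace M] [ChartedSpace C2 M] [T2Space M]
  [IsManifold 𝓘(ℂ, C2) ω M] [ConnectedSpace M] {π : M → X} {g : M ≃ₜ M} {m : ℕ}
  {Q : Matrix (Fin m) (Fin m) ℤ} {c : (X → X → ℂ) → Fin m → ℤ}

theorem top_cover (h : IsCyclic π g) {t : M → ℝ} (ht : IsCover π g t) (hK : H0 id (canon X) = ⊥)
    (hF : SForm X Q c (m : ℤ)) :
    ∃ (L : Fin m → X → X → ℂ) (c1 : (X → X → ℂ) → Fin m → ℤ), HasLattice X L c1 := by
  have k := hF.ineq h ht.shift (fun _ hu => P267W.lefschetz hK hu) (fun _ => ht.conn_of)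
    fun _ => ht.twist
  obtain ⟨U, h1, h2, h3⟩ := Elk.elkiesQ hF.symm hF.unit fun x => (k x).2
  exact hF.hasLattice (fun x => (k x).1) h1 h2 h3

theorem top_lat (h : IsCyclic π g) (h7 : IsClassVII X) (hF : SForm X Q c (m : ℤ)) :
    ∃ (L : Fin m → M → M → ℂ) (c1 : (M → M → ℂ) → Fin m → ℤ),
      IsLattice g (pull π (canon X)) L c1 := by
  have hK : H0 id (canon X) = ⊥ := by simpa only [pow_one] using h7.2 1 le_rfl
  obtain ⟨l, hl⟩ := h.exists_lf
  rcases h.drift_pair h7.1 (hF.pairOf h hl) with ⟨t, ht⟩ | ⟨t, ht⟩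
  · obtain ⟨L, c1, H⟩ := top_cover h ht hK hF
    exact H.pull h
  · obtain ⟨L, c1, H⟩ := top_cover h.inv ht hK hF
    exact H.pull h

end

/-- It suffices to know the two theorems on the finite unramified covers. -/
theorem top_curves {X : Type} [TopologicalSpace X] [ChartedSpace C2 X]
    (hX : P267F.IsSurface X) (h7 : P267F.IsClassVII X)
    (H : ∀ (Y : Type) [TopologicalSpace Y] [ChartedSpace C2 Y], P267F.IsSurface Y →
      ∀ w : Y → X, IsLocalDiffeomorph 𝓘(ℂ, C2) 𝓘(ℂ, C2) ω w →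
        P267F.PoincareDuality Y ∧ P267F.RiemannRoch Y) : P267F.HasCurves X := by
  obtain ⟨a1, a2, a3, a4⟩ := id hX
  have h7' := br_class h7
  obtain ⟨M, _, _, _, _, _, π, g, h4⟩ := P267X.exists_cyclic X h7'.1
  refine P267K.curves5 h4 h7'.1 h7'.2 (P267Q.lattices_of (fun Y _ _ hY hc w hw p G hG => ?_)
    hX h7' h4)
  obtain ⟨b1, b2, b3, b4⟩ := id hY
  obtain ⟨Q, c, hF⟩ := sForm_of (H Y hY w hw).1 (H Y hY w hw).2 canon_hol
  refine top_lat hG hc (Q := Q) (c := c) ?_
  rwa [hc.1, Nat.cast_one, mul_one, sub_self, zero_add] at hF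

end Vale.Agent.P267
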